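import Mathlib

/-!
# P064 job J4b: counting parent functions `Fin n → Option (Fin n)` with a given profile

`ncard_class_mul_le`: the number of parent functions `g` with `M` non-roots, `m` roots having
children and factorial profile `Φ`, times `Φ`, is at most
`C(n,M) * C(n,m) * 2^(2M+m) * M^M`.
-/

namespace Vale.Agent.Lib.P064

open Finset

namespace ClassCount

variable {n : ℕ}

/-- Number of children of `y` under the parent function `g`. -/
def childCount (g : Fin n → Option (Fin n)) (y : Fin n) : ℕ :=
  (Finset.univ.filter (fun x => g x = some y)).card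

/-- The non-roots of `g`. -/
def nonRoots (g : Fin n → Option (Fin n)) : Finset (Fin n) :=
  Finset.univ.filter (fun x => g x ≠ none)

/-- The roots of `g` that have a child. -/
def parentRoots (g : Fin n → Option (Fin n)) : Finset (Fin n) :=
  Finset.univ.filter (fun y => g y = none ∧ ∃ x, g x = some y)

theorem card_piAntidiag_le (s : Finset (Fin n)) (k : ℕ) :
    (Finset.piAntidiag s k).card ≤ 2 ^ (s.card + k) := by
  classical
  have h1 : (Finset.piAntidiag s k).card ≤ (s.finsuppAntidiag k).card := by
    apply Finset.card_le_card_of_injOn (fun c => Finsupp.equivFunOnFinite.symm c)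
    · intro c hc
      rw [Finset.mem_coe, Finset.mem_piAntidiag] at hc
      rw [Finset.mem_coe, Finset.mem_finsuppAntidiag]
      refine ⟨?_, ?_⟩
      · simpa using hc.1
      · intro i hi
        apply hc.2
        simpa using hi
    · intro a _ b _ hab
      exact Finsupp.equivFunOnFinite.symm.injective hab
  rw [Finset.card_finsuppAntidiag_nat_eq_choose] at h1
  calc (Finset.piAntidiag s k).card ≤ (s.card + k - 1).choose k := h1
    _ ≤ 2 ^ (s.card + k - 1) := Nat.choose_le_two_pow _ _
    _ ≤ 2 ^ (s.card + k) := Nat.pow_le_pow_right (by norm_num) (Nat.sub_le _ _)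

theorem sum_childCount (g : Fin n → Option (Fin n)) :
    ∑ y, childCount g y = (nonRoots g).card := by
  classical
  unfold childCount nonRoots
  simp only [Finset.card_filter]
  rw [Finset.sum_comm]
  apply Finset.sum_congr rfl
  intro x _
  cases h : g x with
  | none => simp
  | some z => simp [eq_comm]

theorem mem_of_childCount_ne_zero (g : Fin n → Option (Fin n)) (y : Fin n)
    (h : childCount g y ≠ 0) : y ∈ nonRoots g ∪ parentRoots g := by
  classical
  unfold childCount at h
  rw [Finset.card_ne_zero] at h
  obtain ⟨x, hx⟩ := h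
  rw [Finset.mem_filter] at hx
  rw [Finset.mem_union]
  by_cases hy : g y = none
  · right
    unfold parentRoots
    rw [Finset.mem_filter]
    exact ⟨Finset.mem_univ _, hy, x, hx.2⟩
  · left
    unfold nonRoots
    rw [Finset.mem_filter]
    exact ⟨Finset.mem_univ _, hy⟩

theorem weight_le (N : Finset (Fin n)) (c : Fin n → ℕ) :
    (Finset.univ.filter
        (fun g : Fin n → Option (Fin n) => nonRoots g = N ∧ childCount g = c)).card *
      ∏ y, (c y) ^ (c y) ≤ (∑ y, c y) ^ N.card := by
  classical
  let f : Fin n → Option (Fin n) → ℕ := fun x o =>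
    match o with
    | none => if x ∈ N then 0 else 1
    | some y => if x ∈ N then c y else 0
  have hsum : ∀ x, ∑ o : Option (Fin n), f x o = if x ∈ N then ∑ y, c y else 1 := by
    intro x
    rw [Fintype.sum_option]
    by_cases hx : x ∈ N <;> simp [f, hx]
  have htot : ∑ g : Fin n → Option (Fin n), ∏ x, f x (g x) = (∑ y, c y) ^ N.card := by
    have := Finset.prod_univ_sum (fun _ : Fin n => (Finset.univ : Finset (Option (Fin n)))) f
    rw [Fintype.piFinset_univ] at this
    rw [← this]
    simp only [hsum]
    rw [Finset.prod_ite, Finset.prod_const_one, mul_one, Finset.prod_const]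
    congr 1
    simp
  have hG : ∀ g ∈ Finset.univ.filter
      (fun g : Fin n → Option (Fin n) => nonRoots g = N ∧ childCount g = c),
      ∏ x, f x (g x) = ∏ y, (c y) ^ (c y) := by
    intro g hg
    rw [Finset.mem_filter] at hg
    obtain ⟨-, hN, hc⟩ := hg
    have h1 : ∀ x, f x (g x) = ∏ y, if g x = some y then c y else 1 := by
      intro x
      have hxN : x ∈ N ↔ g x ≠ none := by
        rw [← hN]
        unfold nonRoots
        simp
      cases h : g x with
      | none =>
        have : x ∉ N := by rw [hxN]; simp [h]
        simp [f, this]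
      | some z =>
        have : x ∈ N := by rw [hxN]; simp [h]
        simp [f, this]
    simp only [h1]
    rw [Finset.prod_comm]
    apply Finset.prod_congr rfl
    intro y _
    rw [Finset.prod_ite, Finset.prod_const_one, mul_one, Finset.prod_const]
    congr 1
    rw [← hc]
    rfl
  calc (Finset.univ.filter
        (fun g : Fin n → Option (Fin n) => nonRoots g = N ∧ childCount g = c)).card *
      ∏ y, (c y) ^ (c y)
      = ∑ g ∈ Finset.univ.filter
          (fun g : Fin n → Option (Fin n) => nonRoots g = N ∧ childCount g = c),
          ∏ x, f x (g x) := by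
        rw [Finset.sum_congr rfl hG, Finset.sum_const, smul_eq_mul]
    _ ≤ ∑ g : Fin n → Option (Fin n), ∏ x, f x (g x) :=
        Finset.sum_le_sum_of_subset (Finset.filter_subset _ _)
    _ = (∑ y, c y) ^ N.card := htot

end ClassCount

open ClassCount in
theorem ncard_class_mul_le (n M m Φ : ℕ) :
    {g : Fin n → Option (Fin n) |
        (Finset.univ.filter (fun x => g x ≠ none)).card = M ∧
        (Finset.univ.filter (fun y => g y = none ∧ ∃ x, g x = some y)).card = m ∧
        ∏ y, ((Finset.univ.filter (fun x => g x = some y)).card.factorial) = Φ}.ncard * Φ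
      ≤ n.choose M * n.choose m * 2 ^ (2 * M + m) * M ^ M := by
  classical
  set S : Finset (Fin n → Option (Fin n)) := Finset.univ.filter (fun g =>
      (nonRoots g).card = M ∧ (parentRoots g).card = m ∧
        ∏ y, (childCount g y).factorial = Φ) with hS
  have hncard : {g : Fin n → Option (Fin n) |
        (Finset.univ.filter (fun x => g x ≠ none)).card = M ∧
        (Finset.univ.filter (fun y => g y = none ∧ ∃ x, g x = some y)).card = m ∧
        ∏ y, ((Finset.univ.filter (fun x => g x = some y)).card.factorial) = Φ}.ncard
        = S.card := by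
    rw [← Set.ncard_coe_finset S]
    congr 1
    ext g
    simp [S, nonRoots, parentRoots, childCount]
  rw [hncard]
  set P : Finset (Finset (Fin n) × Finset (Fin n)) :=
    Finset.powersetCard M Finset.univ ×ˢ Finset.powersetCard m Finset.univ with hP
  have hPcard : P.card = n.choose M * n.choose m := by
    rw [hP, Finset.card_product, Finset.card_powersetCard, Finset.card_powersetCard]
    simp
  -- first fibring: over the pair (non-roots, parent roots)
  have h1 : S.card = ∑ p ∈ P, (S.filter (fun g => (nonRoots g, parentRoots g) = p)).card := by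
    apply Finset.card_eq_sum_card_fiberwise
    intro g hg
    rw [Finset.mem_coe, hS, Finset.mem_filter] at hg
    rw [Finset.mem_coe, hP, Finset.mem_product, Finset.mem_powersetCard, Finset.mem_powersetCard]
    exact ⟨⟨Finset.subset_univ _, hg.2.1⟩, ⟨Finset.subset_univ _, hg.2.2.1⟩⟩
  -- bound each fibre
  have h2 : ∀ p ∈ P, (S.filter (fun g => (nonRoots g, parentRoots g) = p)).card * Φ
      ≤ 2 ^ (2 * M + m) * M ^ M := by
    intro p hp
    rw [hP, Finset.mem_product, Finset.mem_powersetCard, Finset.mem_powersetCard] at hp
    obtain ⟨⟨-, hN⟩, ⟨-, hR⟩⟩ := hp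
    set T := S.filter (fun g => (nonRoots g, parentRoots g) = p) with hT
    have hmaps : (T : Set (Fin n → Option (Fin n))).MapsTo (fun g => childCount g)
        (Finset.piAntidiag (p.1 ∪ p.2) M) := by
      intro g hg
      rw [Finset.mem_coe, hT, Finset.mem_filter, hS, Finset.mem_filter] at hg
      obtain ⟨⟨-, hgM, -, -⟩, hgp⟩ := hg
      rw [Finset.mem_coe, Finset.mem_piAntidiag]
      have hsupp : ∀ i, childCount g i ≠ 0 → i ∈ p.1 ∪ p.2 := by
        intro i hi
        have := mem_of_childCount_ne_zero g i hi
        rw [← hgp]
        exact this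
      refine ⟨?_, hsupp⟩
      rw [← hgM, ← sum_childCount g]
      apply Finset.sum_subset (Finset.subset_univ _)
      intro i _ hi
      by_contra h0
      exact hi (hsupp i h0)
    have h3 : T.card = ∑ c ∈ Finset.piAntidiag (p.1 ∪ p.2) M,
        (T.filter (fun g => childCount g = c)).card :=
      Finset.card_eq_sum_card_fiberwise hmaps
    have h4 : ∀ c ∈ Finset.piAntidiag (p.1 ∪ p.2) M,
        (T.filter (fun g => childCount g = c)).card * Φ ≤ M ^ M := by
      intro c hc
      rw [Finset.mem_piAntidiag] at hc
      have hcsum : ∑ y, c y = M := by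
        rw [← hc.1]
        symm
        apply Finset.sum_subset (Finset.subset_univ _)
        intro i _ hi
        by_contra h0
        exact hi (hc.2 i h0)
      rcases (T.filter (fun g => childCount g = c)).eq_empty_or_nonempty with he | ⟨g0, hg0⟩
      · rw [he]
        simp
      · rw [Finset.mem_filter, hT, Finset.mem_filter, hS, Finset.mem_filter] at hg0
        obtain ⟨⟨⟨-, -, -, hΦ⟩, -⟩, hc0⟩ := hg0
        have hΦle : Φ ≤ ∏ y, (c y) ^ (c y) := by
          rw [← hΦ, hc0]
          exact Finset.prod_le_prod' (fun y _ => Nat.factorial_le_pow (c y))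
        have hsub : T.filter (fun g => childCount g = c) ⊆
            Finset.univ.filter
              (fun g : Fin n → Option (Fin n) => nonRoots g = p.1 ∧ childCount g = c) := by
          intro g hg
          rw [Finset.mem_filter, hT, Finset.mem_filter] at hg
          rw [Finset.mem_filter]
          refine ⟨Finset.mem_univ _, ?_, hg.2⟩
          have := hg.1.2
          exact congrArg Prod.fst this
        calc (T.filter (fun g => childCount g = c)).card * Φ
            ≤ (Finset.univ.filter
              (fun g : Fin n → Option (Fin n) => nonRoots g = p.1 ∧ childCount g = c)).card *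
                ∏ y, (c y) ^ (c y) :=
              Nat.mul_le_mul (Finset.card_le_card hsub) hΦle
          _ ≤ (∑ y, c y) ^ p.1.card := weight_le p.1 c
          _ = M ^ M := by rw [hcsum, hN]
    have hA : (Finset.piAntidiag (p.1 ∪ p.2) M).card ≤ 2 ^ (2 * M + m) := by
      refine (card_piAntidiag_le _ _).trans ?_
      apply Nat.pow_le_pow_right (by norm_num)
      have := Finset.card_union_le p.1 p.2
      omega
    calc T.card * Φ = ∑ c ∈ Finset.piAntidiag (p.1 ∪ p.2) M,
          (T.filter (fun g => childCount g = c)).card * Φ := by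
          rw [h3, Finset.sum_mul]
      _ ≤ ∑ _c ∈ Finset.piAntidiag (p.1 ∪ p.2) M, M ^ M := Finset.sum_le_sum h4
      _ = (Finset.piAntidiag (p.1 ∪ p.2) M).card * M ^ M := by
          rw [Finset.sum_const, smul_eq_mul]
      _ ≤ 2 ^ (2 * M + m) * M ^ M := Nat.mul_le_mul_right _ hA
  calc S.card * Φ = ∑ p ∈ P, (S.filter (fun g => (nonRoots g, parentRoots g) = p)).card * Φ := by
        rw [h1, Finset.sum_mul]
    _ ≤ ∑ _p ∈ P, 2 ^ (2 * M + m) * M ^ M := Finset.sum_le_sum h2
    _ = P.card * (2 ^ (2 * M + m) * M ^ M) := by rw [Finset.sum_const, smul_eq_mul]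
    _ = n.choose M * n.choose m * 2 ^ (2 * M + m) * M ^ M := by
        rw [hPcard]
        ring

end Vale.Agent.Lib.P064
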